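import Vale.Agent.P106.R.H371.QDig
import Vale.Agent.P106.R.H518.E12
import Vale.Agent.P106.R.E9.Spec

/-!
# P106 / R / E9, the direction half for regular systems of flags (port of P122/H371/QHalf, helper371)

`qhalf` : at thin levels with close frames, `Σ_{2i-j ≤ c < i-u} JF c ≤ h(dq | sig i j)`.  `stQdg : StQdg` (540's Spec).
-/

set_option autoImplicit false

namespace Vale.Agent.P106.R.H371

open Filter Topology Finset Vale.Agent.P127 Vale.Agent.P127.Stk Vale.Agent.P127.U Vale.Agent.P127.U.Sys Vale.Agent.P106.R.C2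
  Vale.Agent.P106.R.E Vale.Agent.P122.H518

variable {K : ℕ} (F : Flg K)

/-- normal digit of the slope of the node of level `i`, accuracy `2^-((i-u) n)`, in the frame `ψ` of the piece `sig i j` -/
noncomputable def dq (ψ : ℕ → Nd → ℝ) (i j u : ℕ) : F.S.RV ℤ := fun a ω =>
  ⌊2 ^ ((i - u) * F.n a) * fn (ψ a (F.sig i j a ω)) (F.s a i (F.Y i a ω))⌋

/-- normal digit of the slope of the child -/
noncomputable def dn (φ : ℕ → ℕ → Nd → ℝ) (c : ℕ) : F.S.RV ℤ := fun a ω =>
  ⌊2 ^ ((c + 1) * F.n a) * fn (φ c a (F.sg c a ω)) (F.s a (c + 1) (F.Y (c + 1) a ω))⌋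

/-- the frames of the level `c` and of the piece `sig i j` differ -/
def FrBad (φ : ℕ → ℕ → Nd → ℝ) (ψ : ℕ → Nd → ℝ) (i j : ℕ) (c1 : ℝ) (c : ℕ) (a : ℕ) (ω : F.S.Ω a) : Prop :=
  4 * (2 : ℝ) ^ (-(c1 / 4 * F.S.L a)) < |Real.sin (φ c a (F.sg c a ω) - ψ a (F.sig i j a ω))|

theorem slp_nonneg {C : ℝ} {n K : ℕ} {s : Sl} (hs : Slp C n K s) : 0 ≤ C := by
  have h0 : Cap n 0 (0 : Z2) := by
    intro k
    simp
  have := hs.lip 0 0 0 0 (Nat.zero_le _) h0 h0
  simpa using this

/-- the nodes of the flags have caps of their level -/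
theorem flg_cap (a : ℕ) (ω : F.S.Ω a) (hω : 0 < (F.S.P a).w ω) (d : ℕ) (hd : d ≤ K) :
    Cap (F.n a) d (F.N d a ω).τ := by
  induction d with
  | zero =>
    rw [(F.root a ω hω).1]
    intro k
    simp
  | succ d ih =>
    have h1 := ih (by omega)
    have h2 := (F.step a ω hω d (by omega)).1
    intro k
    unfold kids at h2
    rw [Fintype.mem_piFinset] at h2
    have h3 := Finset.mem_Ico.1 (h2 k)
    have h4 := h1 k
    have hn : (0 : ℤ) < 2 ^ F.n a := by positivity
    have e : (2 : ℤ) ^ ((d + 1) * F.n a) = 2 ^ F.n a * 2 ^ (d * F.n a) := by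
      rw [← pow_add]
      congr 1
      ring
    constructor
    · exact le_trans (mul_nonneg hn.le h4.1) h3.1
    · rw [e]
      refine lt_of_lt_of_le h3.2 ?_
      exact mul_le_mul_of_nonneg_left (by linarith [h4.2]) hn.le

theorem n_pos : ∀ᶠ a in (uf : Filter ℕ), 1 ≤ F.n a := by
  filter_upwards [F.S.L_pos] with a ha
  rw [F.L_eq a] at ha
  exact Nat.pos_of_mul_pos_left ha |> fun h => h

theorem two_tendsto (S : Sys) {η : ℝ} (hη : 0 < η) :
    Tendsto (fun a => (2 : ℝ) ^ (-(η * S.L a))) (uf : Filter ℕ) (𝓝 0) := by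
  have h1 : Tendsto (fun a => (S.L a : ℝ)) (uf : Filter ℕ) atTop :=
    tendsto_natCast_atTop_atTop.comp S.Ltop
  have h2 : Tendsto (fun a => -(η * S.L a * Real.log 2)) (uf : Filter ℕ) atBot := by
    refine tendsto_neg_atTop_atBot.comp ?_
    exact (h1.const_mul_atTop hη).atTop_mul_const (Real.log_pos (by norm_num))
  refine (Real.tendsto_exp_atBot.comp h2).congr fun a => ?_
  rw [Function.comp_apply, Real.rpow_def_of_pos (by norm_num)]
  congr 1
  ring

/-- the normal digit of the child is a function of the digit `dq`, of the point, of the cap and of the piece -/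
theorem dn_zero (hK : 1 ≤ K) (φ : ℕ → ℕ → Nd → ℝ) (ψ : ℕ → Nd → ℝ) {c1 : ℝ} (hc1 : 4 ≤ c1 * K) {i j u c : ℕ}
    (hcb : c < i - u) (hi : i ≤ K) (hR : Rare F.S (FrBad F φ ψ i j c1 c)) :
    F.S.hc (dn F φ c) (Sys.pr (dq F ψ i j u) (Sys.pr F.x (Sys.pr (F.Y c) (F.sig i j)))) = 0 := by
  obtain ⟨η, hη, hR⟩ := hR
  obtain ⟨M, hM⟩ := exists_nat_ge (1 + 8 * F.C + 8 * 4 * F.C)
  have hC : 0 ≤ F.C := slp_nonneg (F.slp 0)
  have key : ∀ᶠ a in (uf : Filter ℕ), Stk.hc (F.S.P a) (dn F φ c a)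
      (Sys.pr (dq F ψ i j u) (Sys.pr F.x (Sys.pr (F.Y c) (F.sig i j))) a) / F.S.nm a ≤
        Real.log (2 * M + 3) / F.S.nm a + 2 * (2 : ℝ) ^ (-(η * F.S.L a)) := by
    filter_upwards [n_pos F, F.S.nm_pos, hR] with a hn hnm hr
    have hfl : Flags (F.S.P a) (F.n a) K (F.s a) (fun c => F.N c a) := by
      intro ω hω
      refine ⟨fun d hd => (F.step a ω hω d hd).2, fun d hd => (par_kids (F.step a ω hω d hd).1).symm,
        fun d hd => ?_⟩
      exact flg_cap F a ω hω d hd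
    have h1 := nd_cost hfl hC (F.slp a) hn hcb (Nat.sub_le i u) hi
      (fun c ω => φ c a (F.sg c a ω)) (fun ω ω' _ _ e => by
        have e' : F.N c a ω = F.N c a ω' := e
        show φ c a ((F.N c a ω).sg (F.n a)) = φ c a ((F.N c a ω').sg (F.n a))
        rw [e']) (F.sig i j a) (fun ω => ψ a (F.sig i j a ω)) (fun ω ω' _ _ e => congrArg (ψ a) e)
      (B := 4) hM
    have hbad : pb (F.S.P a) (Bad (fun c ω => φ c a (F.sg c a ω)) (fun ω => ψ a (F.sig i j a ω))
        (4 * (1 / 2 : ℝ) ^ F.n a) c) ≤ (2 : ℝ) ^ (-(η * F.S.L a)) := by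
      refine le_trans ?_ hr
      unfold pb prb
      refine (F.S.P a).ex_mono fun ω _ => ?_
      have hp : (2 : ℝ) ^ (-(c1 / 4 * F.S.L a)) ≤ (1 / 2 : ℝ) ^ F.n a := by
        rw [one_div, inv_pow, ← Real.rpow_natCast, ← Real.rpow_neg (by norm_num)]
        refine Real.rpow_le_rpow_of_exponent_le (by norm_num) ?_
        rw [F.L_eq a]
        push_cast
        have : (0:ℝ) ≤ F.n a := Nat.cast_nonneg _
        nlinarith
      by_cases hb : Bad (fun c ω => φ c a (F.sg c a ω)) (fun ω => ψ a (F.sig i j a ω))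
          (4 * (1 / 2 : ℝ) ^ F.n a) c ω
      · have hb' : FrBad F φ ψ i j c1 c a ω := by
          refine lt_of_le_of_lt ?_ hb
          linarith
        rw [if_pos hb, if_pos hb']
      · rw [if_neg hb]
        split_ifs <;> norm_num
    have h2 : Stk.hc (F.S.P a) (dn F φ c a)
      (Sys.pr (dq F ψ i j u) (Sys.pr F.x (Sys.pr (F.Y c) (F.sig i j))) a) ≤ Real.log (2 * M + 3) +
        2 * F.n a * Real.log 2 * (2 : ℝ) ^ (-(η * F.S.L a)) := by
      refine le_trans h1 ?_
      have : 0 ≤ 2 * (F.n a : ℝ) * Real.log 2 := by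
        have := Real.log_pos (by norm_num : (1:ℝ) < 2)
        positivity
      nlinarith
    rw [div_le_iff₀ hnm, add_mul, div_mul_cancel₀ _ hnm.ne']
    refine h2.trans ?_
    have hKn : (F.n a : ℝ) * Real.log 2 ≤ F.S.nm a := by
      unfold Sys.nm
      rw [F.L_eq a]
      push_cast
      have h3 := Real.log_pos (by norm_num : (1:ℝ) < 2)
      have h4 : (1:ℝ) ≤ K := by exact_mod_cast hK
      have h5 : (0:ℝ) ≤ F.n a := Nat.cast_nonneg _
      have h6 : (F.n a : ℝ) ≤ K * F.n a := by nlinarith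
      nlinarith
    have h7 : (0:ℝ) < (2 : ℝ) ^ (-(η * F.S.L a)) := by positivity
    nlinarith
  refine ulim_eq (squeeze_zero' ?_ key ?_)
  · filter_upwards [F.S.nm_pos] with a ha
    exact div_nonneg (Stk.hc_nonneg _ _ _) ha.le
  · have h1 := F.S.const_div_nm (Real.log (2 * M + 3))
    have h2 := (two_tendsto F.S hη).const_mul 2
    simpa using h1.add h2

variable {F}

/-- **direction half of E9** -/
theorem qhalf {J θ H e : ℕ → ℝ} {W : ℕ → F.S.RV Vale.Agent.P106.W.Cbx} {kk jj : ℕ → ℕ → ℕ} {κ c1 : ℝ} {φ : ℕ → ℕ → Nd → ℝ} {JF : ℕ → ℝ}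
    (hK : 1 ≤ K) (R : RegB F J θ H e W kk jj κ c1 φ JF) (hc1 : 4 ≤ c1 * K) (ψ : ℕ → Nd → ℝ) {i j u : ℕ}
    (hij : i ≤ j) (hji : j ≤ 2 * i) (hjK : j ≤ K)
    (hth : ∀ c, 1 ≤ c → 2 * i - j ≤ c → c < i - u → Thin F e jj κ c1 c)
    (hfr : ∀ c, 1 ≤ c → 2 * i - j ≤ c → c < i - u → Rare F.S (FrBad F φ ψ i j c1 c))
    (hsig : F.S.hc (F.sig i j) (Sys.pr F.x (F.Y (2 * i - j))) = 0) :
    ∑ c ∈ Ico (2 * i - j) (i - u), (if 1 ≤ c then JF c else 0) ≤ F.S.hc (dq F ψ i j u) (F.sig i j) := by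
  have hcts := H518.cts hK R.toRegA
  have tN := hcts.tre.tN
  have iK : i ≤ K := hij.trans hjK
  have tY : ∀ c, c ≤ K → Tame (F.Y c) := fun c hc => (tN c hc).mono (H518.F_YN F c)
  have fsig : Sys.Fn (F.sig i j) (F.N i) := Eventually.of_forall fun a ω ω' _ _ e => by
    have e' : F.N i a ω = F.N i a ω' := e
    show F.sig i j a ω = F.sig i j a ω'
    unfold Flg.sig
    rw [e']
  have tsig : Tame (F.sig i j) := (tN i iK).mono fsig
  have tq : Tame (dq F ψ i j u) := (tN i iK).mono (Eventually.of_forall fun a ω ω' _ _ e => by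
    have e' : F.N i a ω = F.N i a ω' := e
    show dq F ψ i j u a ω = dq F ψ i j u a ω'
    unfold dq Flg.sig Flg.Y
    rw [e'])
  have tx : Tame F.x := tN 0 (Nat.zero_le _)
  set a₀ := 2 * i - j with ha₀
  set q := dq F ψ i j u with hq
  -- the condition of the level `c`
  let Z : ℕ → F.S.RV (Nd × Z2 × Nd) := fun c => Sys.pr F.x (Sys.pr (F.Y c) (F.sig i j))
  have hmono : ∀ c, c < K → Sys.Fn (Z c) (Z (c + 1)) := by
    intro c hcK
    have g0 : Sys.Fn (F.Y c) (Z (c + 1)) :=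
      ftr (H518.F_YY F hcK) (Eventually.of_forall fun a ω ω' _ _ e => by
        simp only [pr_apply, Z, Prod.mk.injEq] at e ⊢
        exact e.2.1)
    exact fpr (ffst _ _) (fpr g0 (Eventually.of_forall fun a ω ω' _ _ e => by
      simp only [pr_apply, Z, Prod.mk.injEq] at e ⊢
      exact e.2.2))
  have hstep : ∀ c, a₀ ≤ c → c < i - u →
      (if 1 ≤ c then JF c else 0) + F.S.hc q (Z (c + 1)) ≤ F.S.hc q (Z c) := by
    intro c hac hcb
    have hcK : c < K := by omega
    rcases Nat.eq_zero_or_pos c with hc0 | hcpos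
    · rw [if_neg (by omega), zero_add]
      exact hc_mono_right tq (hmono c hcK)
    rw [if_pos (by omega)]
    have hth' := hth c hcpos hac hcb
    have tnd : Tame (dn F φ c) := ((tN c hcK.le).pr (tY (c + 1) hcK)).mono
      (Eventually.of_forall fun a ω ω' _ _ e => by
        have e1 : F.N c a ω = F.N c a ω' := congrArg Prod.fst e
        have e2 : F.Y (c + 1) a ω = F.Y (c + 1) a ω' := congrArg Prod.snd e
        show dn F φ c a ω = dn F φ c a ω'
        unfold dn Flg.sg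
        rw [e1, e2])
    have hz := dn_zero F hK φ ψ hc1 (c := c) (u := u) hcb iK (hfr c hcpos hac hcb)
    -- children given the digit
    have b1 : F.S.hc (F.Y (c + 1)) (Sys.pr (F.N c) (dn F φ c)) ≤ J c - JF c :=
      H518.cnt_hc_le (R.C2 c (by omega) hcK hth')
    have b2 : F.S.hc (F.Y (c + 1)) (Sys.pr F.x (F.Y c)) = J c := by
      have := (H518.e1 F J θ H e W kk jj hK R.toRegA).2.2.1 c (c + 1) (Nat.le_succ c) hcK
      rw [this, ← H518.nM_sub J (Nat.le_succ c)]
      simp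
    have b3 : F.S.hc (F.sig i j) (Sys.pr F.x (F.Y c)) = 0 := by
      have g1 := hsig
      have g2 : F.S.hc (F.sig i j) (Sys.pr F.x (F.Y c)) ≤ F.S.hc (F.sig i j) (Sys.pr F.x (F.Y (2 * i - j))) := by
        refine hc_mono_right tsig ?_
        exact fpr (ffst _ _) (ftr (hcts.tre.YY' hac hcK.le) (fsnd _ _))
      exact le_antisymm (g2.trans g1.le) (hc_nonneg tsig _)
    have b4 := hc_le_add (tY (c + 1) hcK) tsig (Sys.pr F.x (F.Y c))
    have b5 : F.S.hc (F.Y (c + 1)) (Sys.pr (F.sig i j) (Sys.pr F.x (F.Y c))) ≤ F.S.hc (F.Y (c + 1)) (Z c) := by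
      refine hc_mono_right (tY (c + 1) hcK) ?_
      exact Eventually.of_forall fun a ω ω' _ _ e => by
        simp only [pr_apply, Z, Prod.mk.injEq] at e ⊢
        exact ⟨e.2.1, e.2.2, e.1⟩
    have b6 := hc_le_add (tY (c + 1) hcK) tnd (Z c)
    have b7 : F.S.hc (F.Y (c + 1)) (Sys.pr (dn F φ c) (Z c)) ≤
        F.S.hc (F.Y (c + 1)) (Sys.pr (F.N c) (dn F φ c)) := by
      refine hc_mono_right (tY (c + 1) hcK) ?_
      have g1 : Sys.Fn (F.N c) (Z c) :=
        ftr (hcts.tre.NxY le_rfl hcK.le) (Eventually.of_forall fun a ω ω' _ _ e => by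
          simp only [pr_apply, Z, Prod.mk.injEq] at e ⊢
          exact ⟨e.1, e.2.1⟩)
      exact fpr (ftr g1 (fsnd _ _)) (ffst _ _)
    -- the digit `q` determines the digit `dn`
    have c1' := hc_pair tq tnd (Z c)
    have c2' := hc_pair tnd tq (Z c)
    have c3' : F.S.hc (Sys.pr q (dn F φ c)) (Z c) = F.S.hc (Sys.pr (dn F φ c) q) (Z c) :=
      hc_congr (Eventually.of_forall fun a ω ω' _ _ e => by
          simp only [pr_apply, Prod.mk.injEq] at e ⊢
          exact ⟨e.1.2, e.1.1⟩)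
        (Eventually.of_forall fun a ω ω' _ _ e => by
          simp only [pr_apply, Prod.mk.injEq] at e ⊢
          exact ⟨e.1.2, e.1.1⟩) (frf _) (frf _)
    have c4' : F.S.hc q (Z (c + 1)) ≤ F.S.hc q (Sys.pr (dn F φ c) (Z c)) := by
      refine hc_mono_right tq ?_
      have g1 : Sys.Fn (Z c) (Z (c + 1)) := hmono c hcK
      have g2 : Sys.Fn (F.N c) (Z (c + 1)) :=
        ftr (hcts.tre.NxY le_rfl hcK.le) (ftr (Eventually.of_forall fun a ω ω' _ _ e => by
          simp only [pr_apply, Z, Prod.mk.injEq] at e ⊢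
          exact ⟨e.1, e.2.1⟩) g1)
      refine fpr ?_ g1
      have g3 : Sys.Fn (dn F φ c) (Sys.pr (F.N c) (F.Y (c + 1))) :=
        Eventually.of_forall fun a ω ω' _ _ e => by
          have e1 : F.N c a ω = F.N c a ω' := congrArg Prod.fst e
          have e2 : F.Y (c + 1) a ω = F.Y (c + 1) a ω' := congrArg Prod.snd e
          show dn F φ c a ω = dn F φ c a ω'
          unfold dn Flg.sg
          rw [e1, e2]
      exact ftr g3 (fpr g2 (Eventually.of_forall fun a ω ω' _ _ e => by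
          simp only [pr_apply, Z, Prod.mk.injEq] at e ⊢
          exact e.2.1))
    have hz' : F.S.hc (dn F φ c) (Sys.pr q (Z c)) = 0 := hz
    linarith
  have key : ∀ m, a₀ + m ≤ i - u → ∑ c ∈ Ico a₀ (a₀ + m), (if 1 ≤ c then JF c else 0) +
      F.S.hc q (Z (a₀ + m)) ≤ F.S.hc q (Z a₀) := by
    intro m
    induction m with
    | zero => intro _; simp
    | succ m ih =>
      intro hm
      have g1 := ih (by omega)
      have g2 := hstep (a₀ + m) (by omega) (by omega)
      rw [← add_assoc, sum_Ico_succ_top (by omega)]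
      linarith
  have hlast : F.S.hc q (Z a₀) ≤ F.S.hc q (F.sig i j) := by
    refine hc_mono_right tq (Eventually.of_forall fun a ω ω' _ _ e => ?_)
    simp only [pr_apply, Z, Prod.mk.injEq] at e ⊢
    exact e.2.2
  rcases le_or_gt a₀ (i - u) with hle | hlt
  · obtain ⟨m, hm⟩ := Nat.exists_eq_add_of_le hle
    have g1 := key m hm.ge
    have g2 := hc_nonneg tq (Z (a₀ + m))
    rw [hm]
    linarith
  · rw [Ico_eq_empty (by omega), sum_empty]
    exact hc_nonneg tq _

/-- the piece is a function of the point and of the cap of level `2 i - j` (block SIG) -/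
def SigXY : Prop := ∀ {K : ℕ} (F : Flg K) (i j : ℕ), 1 ≤ i → i ≤ j → j ≤ 2 * i → j ≤ K → 2 * (j - i) ≤ F.h →
  F.S.hc (F.sig i j) (Sys.pr F.x (F.Y (2 * i - j))) = 0

/-- **StQdg** of `E9/Spec.lean` -/
theorem stQdg_of (hX : SigXY) : E9.StQdg := by
  intro K F J θ H e W kk jj κ c1 φ JF hK hc1 R i j u ψ hi hij hji hjK huj hh h2 hth hfr
  have hK' : (0:ℝ) < K := by exact_mod_cast hK
  have h3 : 4 ≤ c1 * K := by
    rwa [div_le_iff₀ hK'] at h2
  refine qhalf (u := u) hK R h3 ψ hij hji hjK (fun c _ h4 h5 => hth c h4 (by omega)) ?_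
    (hX F i j hi hij hji hjK hh)
  intro c hc1' h4 h5
  obtain ⟨η, hη, hr⟩ := hfr c hc1' h4 (by omega)
  refine ⟨η, hη, ?_⟩
  filter_upwards [hr, R.frame c hc1' (by omega) (hth c h4 (by omega))] with a h6 h7
  refine le_trans ?_ h6
  unfold prb
  refine (F.S.P a).ex_mono fun ω hω => ?_
  have h8 := h7 ω hω
  by_cases hb : FrBad F φ ψ i j c1 c a ω
  · have hb' : 3 * (2 : ℝ) ^ (-(c1 / 4 * F.S.L a)) < |Real.sin (F.wd c (W c) a ω - ψ a (F.sig i j a ω))| := by
      unfold FrBad at hb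
      have e1 : φ c a (F.sg c a ω) - ψ a (F.sig i j a ω) =
          (F.wd c (W c) a ω - ψ a (F.sig i j a ω)) - (F.wd c (W c) a ω - φ c a (F.sg c a ω)) := by ring
      set x := F.wd c (W c) a ω - ψ a (F.sig i j a ω)
      set y := F.wd c (W c) a ω - φ c a (F.sg c a ω)
      rw [e1, Real.sin_sub] at hb
      have g1 : |Real.sin x * Real.cos y| ≤ |Real.sin x| := by
        rw [abs_mul]
        exact mul_le_of_le_one_right (abs_nonneg _) (Real.abs_cos_le_one _)
      have g2 : |Real.cos x * Real.sin y| ≤ |Real.sin y| := by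
        rw [abs_mul]
        exact mul_le_of_le_one_left (abs_nonneg _) (Real.abs_cos_le_one _)
      have g3 := abs_sub (Real.sin x * Real.cos y) (Real.cos x * Real.sin y)
      linarith
    rw [if_pos hb, if_pos hb']
  · rw [if_neg hb]
    split_ifs <;> norm_num

end Vale.Agent.P106.R.H371
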