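import Vale.Agent.P106.R.H371.QHalf
import Vale.Agent.P106.R.SIG.Sig

/-!
# P106 / R / E9 : `StQdg`, unconditional (helper371)
-/

set_option autoImplicit false

namespace Vale.Agent.P106.R.H371

open Vale.Agent.P127 Vale.Agent.P127.Stk Vale.Agent.P127.U Vale.Agent.P127.U.Sys
  Vale.Agent.P106.R.C2 Vale.Agent.P106.R.E

theorem sigXY : SigXY := fun F _ _ _ h2 h3 h4 h5 => SIG.sig_xY F h2 h3 (h2.trans h4) h5

theorem stQdg : E9.StQdg := stQdg_of sigXY

end Vale.Agent.P106.R.H371
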